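import Vale.Agent.P097Top.AsmM
import Vale.Agent.P097S.Cb
import Vale.Agent.P097M.All
import Vale.Agent.P097E.Poly

/-!
# P097: a counterexample has a natural boundary with supercritical growth in all cones at once

Let `Ω` be a table which is integrable near the boundary. Either `Ω` is an ellipse, or the normal
angle as a function of the Lazutkin parameter is holomorphic in a strip of finite width, both of
whose boundary lines are natural boundaries, the growth at the boundary is polynomial (of a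
universal order), and at arbitrarily small depths it is faster than the scale invariant rate in
every cone with vertex on the boundary.
-/

namespace Vale.Agent.Results.P097.AConeUnbounded

open Vale.Agent.P097B.Arc

theorem result : ∃ k : ℕ, ∀ (Ω : Set ℂ) (L : ℝ) (Γ : ℝ → ℂ),
    Table Ω L Γ → Filled L Γ → IsEllipse Ω ∨
    ∃ (p : ℝ → ℝ) (c R : ℝ) (P : ℂ → ℂ), (∀ x, AnalyticAt ℝ p x) ∧
      (∀ x, p (x + 1) = p x + 2 * Real.pi) ∧ (∀ x, 0 < deriv p x) ∧
      (∀ x, (supp Ω (p x) + deriv (deriv (supp Ω)) (p x)) * deriv p x ^ 3 = c) ∧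
      0 < R ∧ DifferentiableOn ℂ P {y | |y.im| < R} ∧ (∀ x : ℝ, P x = p x) ∧
      (∀ (y₀ : ℂ) (r : ℝ) (P' : ℂ → ℂ), |y₀.im| = R → 0 < r →
        DifferentiableOn ℂ P' ({y | |y.im| < R} ∪ Metric.ball y₀ r) → ¬ ∀ x : ℝ, P' x = p x) ∧
      (∃ C : ℝ, ∀ y : ℂ, |y.im| < R → ‖deriv P y‖ * (R - |y.im|) ^ k ≤ C ∧
        ‖deriv (deriv (deriv P)) y‖ * (R - |y.im|) ^ (2 * k) ≤ C * ‖deriv P y‖) ∧
      ¬ ∃ a A d₀ : ℝ, 0 < a ∧ 0 < d₀ ∧ ∀ d : ℝ, 0 < d → d < d₀ → ∃ s : ℝ, ∀ y : ℂ,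
        0 < y.im → d < R - y.im → |y.re - s| < a * (R - y.im) →
        (‖deriv P y‖ * (R - y.im)) ^ 4 * d ≤ A ^ 4 * (R - y.im) ∧
        (‖deriv (deriv (deriv P)) y‖ * (R - y.im) ^ 2) ^ 2 * d ≤
          A ^ 4 * (R - y.im) * ‖deriv P y‖ ^ 2 :=
  P097S.lit3 P097E.poly P097S.cb P097M.h2

end Vale.Agent.Results.P097.AConeUnbounded
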