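import Vale.Agent.P097A.All
import Vale.Agent.P097.H402.Equiv

/-!
# P097: the near-boundary Birkhoff conjecture for algebraic tables

A smooth convex table which is integrable near the boundary and whose boundary has infinitely many
points on a real algebraic curve is an ellipse. No polynomial first integral is assumed. Moreover
the radius of curvature of a table which is integrable near the boundary has no complex zero on any
domain to which the support function extends holomorphically.
-/

namespace Vale.Agent.Results.P097.AlgebraicTables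

open Vale.Agent.P097 Filter Topology

theorem result (h : ℝ → ℝ) (T : SmoothTable h)
    (I : ∃ η : ℝ, 0 < η ∧ (Collar h η ∨ H407.Leaves h η)) :
    (∀ p : MvPolynomial (Fin 2) ℝ, p ≠ 0 →
      {ψ ∈ Set.Icc 0 (2 * Real.pi) |
        MvPolynomial.eval ![(bdry h ψ).re, (bdry h ψ).im] p = 0}.Infinite →
      H407.IsEllipse h) ∧
    (∀ (H : ℂ → ℂ) (U : Set ℂ) (ψ₀ : ℝ), IsOpen U → IsPreconnected U → DifferentiableOn ℂ H U →
      (ψ₀ : ℂ) ∈ U → (∀ᶠ ψ : ℝ in 𝓝 ψ₀, H ψ = h ψ) → ∀ z ∈ U, H z + deriv (deriv H) z ≠ 0) := by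
  have E := H402.equivalence T
  have K : IsTable h ∧ H402.IntBd h := by
    obtain ⟨η, η0, hC | hL⟩ := I
    · exact E.2.1 ⟨η, η0, hC⟩
    · exact E.2.1 (E.1.2 ⟨η, η0, hL⟩)
  exact ⟨fun p => P097A.t1' h p K.1 K.2, fun H U ψ₀ => P097A.t2' h H U ψ₀ K.1 K.2⟩

end Vale.Agent.Results.P097.AlgebraicTables
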