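import Vale.Agent.P097T.EndFin
import Vale.Agent.P097T.T3All
import Vale.Agent.P097B.Lit

/-!
# P097: the natural boundary theorem for tables which are integrable near the boundary

Let `Ω` be a table which is integrable near the boundary, `ρ` its radius of curvature as a function
of the normal angle. If `ρ` is algebroid off a countable closed subset of the plane, `Ω` is an
ellipse. If `Ω` is not an ellipse, the normal angle as a function of the Lazutkin parameter is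
either entire, or holomorphic in a strip both of whose boundary lines are natural boundaries.
-/

namespace Vale.Agent.Results.P097.NaturalBoundary

open Vale.Agent.P097B.Arc Filter Topology

theorem result (Ω : Set ℂ) (L : ℝ) (Γ : ℝ → ℂ) (T : Table Ω L Γ) (F : Filled L Γ) (ρ : ℝ → ℝ)
    (hρ : ∀ θ, ρ θ = supp Ω θ + deriv (deriv (supp Ω)) θ) :
    (∀ (S : Set ℂ) (D : ℕ) (a : ℕ → ℂ → ℂ) (θ₀ : ℝ), S.Countable → IsClosed S →
      (∀ k, DifferentiableOn ℂ (a k) Sᶜ) → (∃ k ≤ D, ∃ z ∉ S, a k z ≠ 0) → (θ₀ : ℂ) ∉ S →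
      (∀ᶠ θ : ℝ in 𝓝 θ₀, ∑ k ∈ Finset.range (D + 1), a k θ * (ρ θ : ℂ) ^ k = 0) →
      IsEllipse Ω) ∧
    (¬ IsEllipse Ω → ∃ (p : ℝ → ℝ) (c : ℝ), (∀ x, AnalyticAt ℝ p x) ∧
      (∀ x, p (x + 1) = p x + 2 * Real.pi) ∧ (∀ x, 0 < deriv p x) ∧
      (∀ x, ρ (p x) * deriv p x ^ 3 = c) ∧
      ((∃ P : ℂ → ℂ, Differentiable ℂ P ∧ ∀ x : ℝ, P x = p x) ∨
        ∃ R : ℝ, 0 < R ∧
          (∃ P : ℂ → ℂ, DifferentiableOn ℂ P {y | |y.im| < R} ∧ ∀ x : ℝ, P x = p x) ∧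
          ∀ (y₀ : ℂ) (r : ℝ) (P : ℂ → ℂ), |y₀.im| = R → 0 < r →
            DifferentiableOn ℂ P ({y | |y.im| < R} ∪ Metric.ball y₀ r) →
            ¬ ∀ x : ℝ, P x = p x)) := by
  have T3 : P097T.Spec_T3 := P097T.Out.t3_end'
  obtain ⟨hT, hI⟩ := intBd T F
  obtain rfl : ρ = fun θ => supp Ω θ + deriv (deriv (supp Ω)) θ := funext hρ
  refine ⟨fun S D a θ₀ h1 h2 h3 h4 h5 h6 => (dict T).2.2.2
    (P097T.cor' T3 _ S D a θ₀ hT hI ⟨h1, h2, h3, h4⟩ h5 h6), fun k => ?_⟩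
  obtain ⟨p, c, hL⟩ := P097T.exists_laz hT hI
  refine ⟨p, c, hL.an, hL.per, hL.pos, hL.eq,
    (P097T.dich T3 hT hI hL fun m => k ((dict T).2.2.2 m)).imp ?_ ?_⟩
  · exact fun ⟨P, E⟩ => ⟨P, differentiableOn_univ.1 E.hol, E.eq⟩
  · exact fun ⟨R, R0, ⟨P, E⟩, m⟩ => ⟨R, R0, ⟨P, E.hol, E.eq⟩,
      fun y₀ r Q a b d e => m y₀ r Q a b ⟨d, e⟩⟩

end Vale.Agent.Results.P097.NaturalBoundary
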